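import Vale.Agent.P004X.P004H.H404.KW2
import Vale.Agent.P004X.P004E.H503.Mods

/-!
# P004H: all modules of `P004E` from the weak input `StN1w`
-/

namespace P004H

open P004G P004E P004E.Fin

/-- module S5 -/
theorem dualAll [Crv] (hTF : StTF) (hN0 : StN0) (hN1 : StN1w) (hH : StHlam) : StDual :=
  pfDual pfPoiW (pfAd0 hN0) pfAdAG pfAdSep KT.pfAP (KW.pfST hN1 hH) (KT.pfTq hH) hN0
    (pfAG (pfSep2 pfCoef P004.pfKer) (pfConv pfCoef P004.pfDiv) (pfStFrac pfCoef) P004.pfDiv)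
    (pfTailAG P004.pfKer) (full (pfZ1 hTF))

/-- **module S** from `StDual` -/
theorem pfStrip_dual [Crv] (hTF : StTF) (hN1 : StN1w) (hH : StHlam) (hD : StDual) : StStrip :=
  pfStrip_of (lev_fin (full (pfZ1 hTF))
    (pfStep (KW.pfTS hN1 hH) (KT.pfTp hH) hD (pfFE hTF)))

/-- the modules F, W, M, S -/
theorem modulesW [Crv] (hTF : StTF) (hM : StMert) (hN0 : StN0) (hN1 : StN1w) (hH : StHlam) :
    StFirst ∧ StWin ∧ StMr ∧ StBlk ∧ StStrip := by
  have hW : StWin := P004G.E3W.pfWin pfCoef P004.pfDiv (tw2 (full (pfZ1 hTF))) hM mert1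
  exact ⟨F.pfFirst_of (H156.pfMainVal hM)
      (fun N D hN h2 σ hσ ε κ hε hε1 hκ => H147.swap N D hN h2 hσ hε hε1 hκ) hW, hW,
    P004G.E3W.pfMr P004.pfDiv pfTw0, pfBlk hM,
    pfStrip_dual hTF hN1 hH (dualAll hTF hN0 hN1 hH)⟩

end P004H
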